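import Vale.Agent.P159.TM.Spec.I

/-!
Row IASM1 (first half) of module (I): `IGc`, `UV`, `LOGM`, `SUSM` give `IVAR` and `ISUS`.
-/

namespace Vale.Agent.P159.TM.H992

open Finset Filter Vale.Agent.P159.TM.SpecI

theorem ex_mul {n : ℕ} (b : ℝ) (es : Finset (V n × Bool)) (X : Finset (V n))
    (Q : (V n → ℤ) → ℝ) (c : ℝ) (F : (V n → ℤ) → ℝ) :
    ex b es X Q (fun h => c * F h) = c * ex b es X Q F := by
  unfold ex
  have h1 : (∑' h : V n → ℤ, wt b es X Q h * (c * F h)) =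
      c * ∑' h : V n → ℤ, wt b es X Q h * F h := by
    rw [← tsum_mul_left]
    exact tsum_congr fun h => by ring
  rw [h1, mul_div_assoc]

/-- the cell number `c` of side `r` -/
def cell (n r : ℕ) (c : ℕ × ℕ) : Finset (V n) :=
  (range r ×ˢ range r).image fun p =>
    (((c.1 * r + p.1 : ℕ) : ZMod n), ((c.2 * r + p.2 : ℕ) : ZMod n))

theorem avg_eq_sum {n r : ℕ} (c : ℕ × ℕ) (h1 : (c.1 + 1) * r ≤ n) (h2 : (c.2 + 1) * r ≤ n)
    (h : V n → ℤ) : avg r c h = (∑ x ∈ cell n r c, (h x : ℝ)) / (r : ℝ) ^ 2 := by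
  unfold avg cell
  congr 1
  rw [sum_image, sum_product]
  rintro ⟨a, a'⟩ ha ⟨b, b'⟩ hb hab
  simp only [coe_product, coe_range, Set.mem_prod, Set.mem_Iio] at ha hb
  have e : ∀ x y z : ℕ, (x + 1) * r ≤ n → y < r → z < r →
      ((x * r + y : ℕ) : ZMod n) = ((x * r + z : ℕ) : ZMod n) → y = z := by
    intro x y z hx hy hz hyz
    rw [ZMod.natCast_eq_natCast_iff'] at hyz
    have hx' : x * r + r ≤ n := by
      calc x * r + r = (x + 1) * r := by ring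
        _ ≤ n := hx
    rw [Nat.mod_eq_of_lt (by omega), Nat.mod_eq_of_lt (by omega)] at hyz
    omega
  have hab' := Prod.ext_iff.mp hab
  exact Prod.ext (e _ _ _ h1 ha.1 hb.1 hab'.1) (e _ _ _ h2 ha.2 hb.2 hab'.2)

/-- a cell average as a functional `pr φ` with `|φ| ≤ 4^{-k}` -/
theorem avg_eq_pr (k s i j : ℕ) (hs : s ≤ k) (hi : i < 2 ^ s) (hj : j < 2 ^ s)
    (h : V (2 ^ k) → ℤ) : avg (2 ^ (k - s)) (i, j) h =
      4 ^ s * pr (fun x => if x ∈ cell (2 ^ k) (2 ^ (k - s)) (i, j) then 1 / 4 ^ k else 0) h := by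
  have hle : ∀ a : ℕ, a < 2 ^ s → (a + 1) * 2 ^ (k - s) ≤ 2 ^ k := by
    intro a ha
    calc (a + 1) * 2 ^ (k - s) ≤ 2 ^ s * 2 ^ (k - s) := Nat.mul_le_mul_right _ ha
      _ = 2 ^ k := by rw [← pow_add]; congr 1; omega
  rw [avg_eq_sum (i, j) (hle i hi) (hle j hj)]
  unfold pr
  simp only [ite_mul, zero_mul]
  rw [← sum_filter, filter_mem_eq_inter, univ_inter, ← mul_sum]
  have h4 : (4 : ℝ) ^ k = 4 ^ s * 4 ^ (k - s) := by rw [← pow_add]; congr 1; omega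
  have h5 : (((2 ^ (k - s) : ℕ) : ℝ)) ^ 2 = 4 ^ (k - s) := by
    push_cast
    rw [← pow_mul, mul_comm, pow_mul]
    norm_num
  rw [h5, h4]
  have h6 : (4 : ℝ) ^ s ≠ 0 := by positivity
  have h7 : (4 : ℝ) ^ (k - s) ≠ 0 := by positivity
  field_simp

theorem cell_UV {b κ C' : ℝ} {k a s i j : ℕ} (hs : s ≤ k) (hi : i < 2 ^ s) (hj : j < 2 ^ s)
    (h : ∀ φ : V (2 ^ k) → ℝ, (∀ x, |φ x| ≤ 1 / 4 ^ k) →
      exA b κ k a (fun h => pr φ h ^ 2) - C' ≤ exF b κ k (fun h => pr φ h ^ 2)) :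
    exA b κ k a (fun h => avg (2 ^ (k - s)) (i, j) h ^ 2) - 16 ^ s * C' ≤
      exF b κ k (fun h => avg (2 ^ (k - s)) (i, j) h ^ 2) := by
  set φ : V (2 ^ k) → ℝ :=
    fun x => if x ∈ cell (2 ^ k) (2 ^ (k - s)) (i, j) then 1 / 4 ^ k else 0 with hφ
  have e : (fun h : V (2 ^ k) → ℤ => avg (2 ^ (k - s)) (i, j) h ^ 2) =
      fun h => 16 ^ s * pr φ h ^ 2 := by
    funext h
    have h16 : ((4 : ℝ) ^ s) ^ 2 = 16 ^ s := by
      rw [← pow_mul, mul_comm s 2, pow_mul]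
      norm_num
    rw [avg_eq_pr k s i j hs hi hj h, mul_pow, h16]
  have h1 := h φ (fun x => by
    simp only [hφ]
    split_ifs
    · rw [abs_of_nonneg (by positivity)]
    · rw [abs_zero]; positivity)
  rw [e]
  unfold exA exF at h1 ⊢
  rw [ex_mul, ex_mul]
  have h16 : (0 : ℝ) < 16 ^ s := by positivity
  nlinarith

theorem cells {b : ℝ} (hY : 0 < helicity b) (hG : IGc b) (hU : UV b) {κ : ℝ} (hκ : 0 < κ)
    (s k₁ : ℕ) {δ : ℝ} (hδ : 0 < δ) (S : ℝ)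
    (hS : ∀ i j : ℕ, i < 2 ^ s → j < 2 ^ s → ∃ K : Finset (ℕ × ℕ), S ≤
      ∑ m ∈ K, (cavg s i m.1 * cavg s j m.2) ^ 2 / (cn m.1 * cn m.2 *
        (κ ^ 2 + Real.pi ^ 2 * ((m.1 : ℝ) ^ 2 + (m.2 : ℝ) ^ 2) / helicity b))) :
    ∃ k₀ : ℕ, k₁ ≤ k₀ ∧ ∀ k : ℕ, k₀ ≤ k → ∀ i j : ℕ, i < 2 ^ s → j < 2 ^ s →
      S - δ ≤ exF b κ k (fun h => avg (2 ^ (k - s)) (i, j) h ^ 2) := by
  obtain ⟨C, c, hC, hc, hU⟩ := hU κ hκ
  obtain ⟨a, ha⟩ : ∃ a : ℕ, 16 ^ s * (C * (2 : ℝ) ^ (-(c * a))) ≤ δ / 2 := by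
    have t1 : Tendsto (fun a : ℕ => ((2 : ℝ) ^ (-c)) ^ a) atTop (nhds 0) :=
      tendsto_pow_atTop_nhds_zero_of_lt_one (by positivity)
        (Real.rpow_lt_one_of_one_lt_of_neg (by norm_num) (by linarith))
    have t2 : Tendsto (fun a : ℕ => 16 ^ s * (C * ((2 : ℝ) ^ (-c)) ^ a)) atTop (nhds 0) := by
      have := (t1.const_mul C).const_mul ((16 : ℝ) ^ s)
      simpa using this
    obtain ⟨a, ha⟩ := ((tendsto_order.1 t2).2 (δ / 2) (by linarith)).exists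
    refine ⟨a, ?_⟩
    have e : (2 : ℝ) ^ (-(c * a)) = ((2 : ℝ) ^ (-c)) ^ a := by
      rw [← Real.rpow_natCast, ← Real.rpow_mul (by norm_num)]
      congr 1
      ring
    rw [e]
    exact ha.le
  have h1 : ∀ᶠ k : ℕ in atTop, ∀ p ∈ range (2 ^ s) ×ˢ range (2 ^ s),
      S - δ / 2 ≤ exA b κ k a (fun h => avg (2 ^ (k - s)) (p.1, p.2) h ^ 2) := by
    rw [eventually_all_finset]
    rintro ⟨i, j⟩ hp
    simp only [mem_product, mem_range] at hp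
    obtain ⟨K, hK⟩ := hS i j hp.1 hp.2
    obtain ⟨k₀, hk⟩ := hG hY κ hκ a s i j hp.1 hp.2 K (δ / 2) (by linarith)
    filter_upwards [eventually_ge_atTop k₀] with k hk'
    exact le_trans (by linarith) (hk k hk')
  obtain ⟨k₀, hk₀⟩ := eventually_atTop.1 h1
  refine ⟨max k₀ (max k₁ (max a s)), by simp, fun k hk i j hi hj => ?_⟩
  simp only [max_le_iff] at hk
  have h2 := hk₀ k hk.1 (i, j) (by simp only [mem_product, mem_range]; exact ⟨hi, hj⟩)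
  have h3 := cell_UV (i := i) (j := j) hk.2.2.2 hi hj (hU k a hk.2.2.1)
  simp only at h2
  linarith

theorem ivar {b : ℝ} (hY : 0 < helicity b) (hG : IGc b) (hU : UV b) (hL : LOGM) : IVAR b := by
  obtain ⟨v, hv, t₀, hL⟩ := hL (helicity b) hY
  refine ⟨v / 2, by linarith, max t₀ 1, fun t ht i => ?_⟩
  have ht1 : (1 : ℝ) ≤ t := by exact_mod_cast (le_max_right _ _).trans ht
  obtain ⟨k₀, h1, h2⟩ := cells hY hG hU (κ := (2 : ℝ) ^ i) (by positivity) (i + t) (i + t)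
    (δ := v / 2 * t) (by positivity) (v * t)
    (fun i₁ j₁ hi hj => hL t ((le_max_left _ _).trans ht) i i₁ j₁ hi hj)
  refine ⟨k₀, h1, fun k hk i₁ j₁ hi hj => ?_⟩
  have := h2 k hk i₁ j₁ hi hj
  linarith

theorem isus {b : ℝ} (hY : 0 < helicity b) (hG : IGc b) (hU : UV b) (hS : SUSM) : ISUS b := by
  obtain ⟨C, hC, hS⟩ := hS (helicity b) hY
  refine ⟨C, hC, fun i s hs δ hδ => ?_⟩
  have h4 : (0 : ℝ) < 4 ^ s / 4 ^ i := by positivity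
  obtain ⟨k₀, h1, h2⟩ := cells hY hG hU (κ := (2 : ℝ) ^ i) (by positivity) s i
    (δ := δ / 2 * (4 ^ s / 4 ^ i)) (by positivity) ((1 - C / 2 ^ (i - s) - δ / 2) * (4 ^ s / 4 ^ i))
    (fun i₁ j₁ hi hj => hS i s hs i₁ j₁ hi hj (δ / 2) (by linarith))
  refine ⟨k₀, h1, fun k hk i₁ j₁ hi hj => ?_⟩
  have := h2 k hk i₁ j₁ hi hj
  linarith

theorem iasm1 {b : ℝ} (hY : 0 < helicity b) (hG : IGc b) (hU : UV b) (hL : LOGM) (hS : SUSM) :
    IVAR b ∧ ISUS b := ⟨ivar hY hG hU hL, isus hY hG hU hS⟩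

end Vale.Agent.P159.TM.H992
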