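import Vale.Agent.P159.TM.Spec.I

/-!
Row LOGM of module (I): the elementary mode sum of a cell.
-/

namespace Vale.Agent.P159.TM.H992

open Finset Real

theorem cos_pair (t : ℝ) : 7 / 16 ≤ cos t ^ 2 + cos (2 * t) ^ 2 := by
  rw [cos_two_mul]
  nlinarith [sq_nonneg (cos t ^ 2 - 3 / 8)]

theorem sum_cos (θ : ℝ) (M : ℕ) :
    7 / 32 * (M : ℝ) ≤ ∑ m ∈ Ioc 0 (2 * M), cos ((m : ℝ) * θ) ^ 2 := by
  have h1 : 7 / 16 * (M : ℝ) ≤
      ∑ m ∈ Ioc 0 M, (cos ((m : ℝ) * θ) ^ 2 + cos (2 * ((m : ℝ) * θ)) ^ 2) := by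
    calc 7 / 16 * (M : ℝ) = ∑ m ∈ Ioc 0 M, (7 / 16 : ℝ) := by
          rw [sum_const, Nat.card_Ioc, nsmul_eq_mul, Nat.sub_zero]; ring
      _ ≤ _ := sum_le_sum fun m _ => cos_pair _
  rw [sum_add_distrib] at h1
  have h2 : ∑ m ∈ Ioc 0 M, cos ((m : ℝ) * θ) ^ 2 ≤
      ∑ m ∈ Ioc 0 (2 * M), cos ((m : ℝ) * θ) ^ 2 :=
    sum_le_sum_of_subset_of_nonneg (Ioc_subset_Ioc_right (by omega)) fun _ _ _ => sq_nonneg _
  have h3 : ∑ m ∈ Ioc 0 M, cos (2 * ((m : ℝ) * θ)) ^ 2 ≤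
      ∑ m ∈ Ioc 0 (2 * M), cos ((m : ℝ) * θ) ^ 2 := by
    have h4 : ∑ m ∈ Ioc 0 M, cos (2 * ((m : ℝ) * θ)) ^ 2 =
        ∑ m ∈ (Ioc 0 M).image (fun m : ℕ => 2 * m), cos ((m : ℝ) * θ) ^ 2 := by
      rw [sum_image (fun a _ b _ hab => by
        have : 2 * a = 2 * b := hab
        omega)]
      refine sum_congr rfl fun m _ => ?_
      rw [Nat.cast_mul, Nat.cast_ofNat, mul_assoc]
    rw [h4]
    refine sum_le_sum_of_subset_of_nonneg ?_ fun _ _ _ => sq_nonneg _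
    intro m hm
    simp only [mem_image, mem_Ioc] at hm ⊢
    obtain ⟨a, ha, rfl⟩ := hm
    omega
  linarith

theorem block (θ : ℝ) (M : ℕ) :
    3 / 4 * (M : ℝ) ≤ ∑ m ∈ Ioc M (16 * M), cos ((m : ℝ) * θ) ^ 2 := by
  have h1 := sum_cos θ (8 * M)
  have h2 : ∑ m ∈ Ioc 0 (2 * (8 * M)), cos ((m : ℝ) * θ) ^ 2 =
      ∑ m ∈ Ioc 0 M, cos ((m : ℝ) * θ) ^ 2 + ∑ m ∈ Ioc M (16 * M), cos ((m : ℝ) * θ) ^ 2 := by
    rw [show 2 * (8 * M) = 16 * M by ring]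
    exact (sum_Ioc_consecutive _ (Nat.zero_le M) (by omega)).symm
  have h3 : ∑ m ∈ Ioc 0 M, cos ((m : ℝ) * θ) ^ 2 ≤ M := by
    calc ∑ m ∈ Ioc 0 M, cos ((m : ℝ) * θ) ^ 2 ≤ ∑ m ∈ Ioc 0 M, (1 : ℝ) :=
          sum_le_sum fun m _ => cos_sq_le_one _
      _ = M := by rw [sum_const, Nat.card_Ioc, nsmul_eq_mul, Nat.sub_zero, mul_one]
  push_cast at h1
  linarith

theorem cavg_eq (s i m : ℕ) (hm : 0 < m) :
    SpecI.cavg s i m = cos (m * (π * ((2 * i + 1) / 2 ^ (s + 1)))) *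
      (sin (m * π / 2 ^ (s + 1)) / (m * π / 2 ^ (s + 1))) := by
  have hm' : (m : ℝ) ≠ 0 := by exact_mod_cast hm.ne'
  have hπ : (π : ℝ) ≠ 0 := pi_ne_zero
  have hmp : (m : ℝ) * π ≠ 0 := mul_ne_zero hm' hπ
  have h2 : (2 : ℝ) ^ s ≠ 0 := by positivity
  unfold SpecI.cavg
  rw [intervalIntegral.integral_comp_mul_left (fun x => cos x) hmp, integral_cos, sin_sub_sin]
  have e1 : (↑m * π * ((↑i + 1) / 2 ^ s) - ↑m * π * (↑i / 2 ^ s)) / 2 = ↑m * π / 2 ^ (s + 1) := by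
    rw [pow_succ]; field_simp; ring
  have e2 : (↑m * π * ((↑i + 1) / 2 ^ s) + ↑m * π * (↑i / 2 ^ s)) / 2 =
      ↑m * (π * ((2 * ↑i + 1) / 2 ^ (s + 1))) := by
    rw [pow_succ]; field_simp; ring
  rw [e1, e2, smul_eq_mul]
  rw [pow_succ]
  field_simp

theorem cavg_sq (s i m : ℕ) (hm : 0 < m) (hs : m ≤ 2 ^ s) :
    4 / π ^ 2 * cos (m * (π * ((2 * i + 1) / 2 ^ (s + 1)))) ^ 2 ≤ SpecI.cavg s i m ^ 2 := by
  rw [cavg_eq s i m hm, mul_pow]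
  have hm' : (0 : ℝ) < m := by exact_mod_cast hm
  have hu : 0 < (m : ℝ) * π / 2 ^ (s + 1) := by positivity
  have hu2 : (m : ℝ) * π / 2 ^ (s + 1) ≤ π / 2 := by
    rw [div_le_div_iff₀ (by positivity) (by norm_num), pow_succ]
    have : (m : ℝ) ≤ 2 ^ s := by exact_mod_cast hs
    nlinarith [pi_pos]
  have h1 : 2 / π ≤ sin (m * π / 2 ^ (s + 1)) / (m * π / 2 ^ (s + 1)) := by
    rw [le_div_iff₀ hu]
    exact mul_le_sin hu.le hu2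
  have h2 : 4 / π ^ 2 ≤ (sin (m * π / 2 ^ (s + 1)) / (m * π / 2 ^ (s + 1))) ^ 2 := by
    calc 4 / π ^ 2 = (2 / π) ^ 2 := by rw [div_pow]; norm_num
      _ ≤ _ := pow_le_pow_left₀ (by positivity) h1 2
  rw [mul_comm]
  exact mul_le_mul_of_nonneg_left h2 (sq_nonneg _)

theorem block_term (Y : ℝ) (hY : 0 < Y) (i s i₁ j₁ M : ℕ) (hi : 2 ^ i ≤ M) (hs : 16 * M ≤ 2 ^ s) :
    36 / (π ^ 4 * (1 + 512 * π ^ 2 / Y)) ≤
      ∑ m ∈ Ioc M (16 * M) ×ˢ Ioc M (16 * M),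
        (SpecI.cavg s i₁ m.1 * SpecI.cavg s j₁ m.2) ^ 2 /
        (SpecI.cn m.1 * SpecI.cn m.2 * (((2 : ℝ) ^ i) ^ 2 +
          π ^ 2 * ((m.1 : ℝ) ^ 2 + (m.2 : ℝ) ^ 2) / Y)) := by
  have hM0 : 0 < M := lt_of_lt_of_le (by positivity) hi
  have hM : (0 : ℝ) < M := by exact_mod_cast hM0
  have hiM : (2 : ℝ) ^ i ≤ M := by exact_mod_cast hi
  have hπ := pi_pos
  set E : ℝ := 1 + 512 * π ^ 2 / Y with hE
  have hE0 : 0 < E := by positivity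
  set α : ℝ := π * ((2 * (i₁ : ℝ) + 1) / 2 ^ (s + 1)) with hα
  set β : ℝ := π * ((2 * (j₁ : ℝ) + 1) / 2 ^ (s + 1)) with hβ
  have key : ∀ m ∈ Ioc M (16 * M) ×ˢ Ioc M (16 * M),
      64 / (π ^ 4 * M ^ 2 * E) * (cos (m.1 * α) ^ 2 * cos (m.2 * β) ^ 2) ≤
        (SpecI.cavg s i₁ m.1 * SpecI.cavg s j₁ m.2) ^ 2 /
        (SpecI.cn m.1 * SpecI.cn m.2 * (((2 : ℝ) ^ i) ^ 2 +
          π ^ 2 * ((m.1 : ℝ) ^ 2 + (m.2 : ℝ) ^ 2) / Y)) := by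
    rintro ⟨a, b⟩ hab
    simp only [mem_product, mem_Ioc] at hab
    obtain ⟨⟨ha1, ha2⟩, hb1, hb2⟩ := hab
    have ha0 : a ≠ 0 := by omega
    have hb0 : b ≠ 0 := by omega
    have haR : (a : ℝ) ≤ 16 * M := by exact_mod_cast ha2
    have hbR : (b : ℝ) ≤ 16 * M := by exact_mod_cast hb2
    have h1 := cavg_sq s i₁ a (by omega) (by omega)
    have h2 := cavg_sq s j₁ b (by omega) (by omega)
    rw [← hα] at h1
    rw [← hβ] at h2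
    simp only [SpecI.cn, if_neg ha0, if_neg hb0, mul_pow]
    have hden : ((2 : ℝ) ^ i) ^ 2 + π ^ 2 * ((a : ℝ) ^ 2 + (b : ℝ) ^ 2) / Y ≤ M ^ 2 * E := by
      have q1 : ((2 : ℝ) ^ i) ^ 2 ≤ M ^ 2 := pow_le_pow_left₀ (by positivity) hiM 2
      have q2 : (a : ℝ) ^ 2 + (b : ℝ) ^ 2 ≤ 512 * M ^ 2 := by
        have := pow_le_pow_left₀ (Nat.cast_nonneg a) haR 2
        have := pow_le_pow_left₀ (Nat.cast_nonneg b) hbR 2
        nlinarith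
      have q3 : π ^ 2 * ((a : ℝ) ^ 2 + (b : ℝ) ^ 2) / Y ≤ π ^ 2 * (512 * M ^ 2) / Y := by
        gcongr
      have q4 : π ^ 2 * (512 * (M : ℝ) ^ 2) / Y = M ^ 2 * (512 * π ^ 2 / Y) := by ring
      rw [hE]
      nlinarith
    have hden0 : 0 < ((2 : ℝ) ^ i) ^ 2 + π ^ 2 * ((a : ℝ) ^ 2 + (b : ℝ) ^ 2) / Y := by positivity
    have hnum : 16 / π ^ 4 * (cos (a * α) ^ 2 * cos (b * β) ^ 2) ≤
        SpecI.cavg s i₁ a ^ 2 * SpecI.cavg s j₁ b ^ 2 := by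
      calc 16 / π ^ 4 * (cos (a * α) ^ 2 * cos (b * β) ^ 2)
          = (4 / π ^ 2 * cos (a * α) ^ 2) * (4 / π ^ 2 * cos (b * β) ^ 2) := by
            field_simp; ring
        _ ≤ _ := mul_le_mul h1 h2 (by positivity) (sq_nonneg _)
    calc 64 / (π ^ 4 * M ^ 2 * E) * (cos (a * α) ^ 2 * cos (b * β) ^ 2)
        = (16 / π ^ 4 * (cos (a * α) ^ 2 * cos (b * β) ^ 2)) / (1 / 2 * (1 / 2) * (M ^ 2 * E)) := by
          field_simp; ring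
      _ ≤ (SpecI.cavg s i₁ a ^ 2 * SpecI.cavg s j₁ b ^ 2) / (1 / 2 * (1 / 2) * (M ^ 2 * E)) := by
          gcongr
      _ ≤ _ := by
          gcongr
  refine le_trans ?_ (sum_le_sum key)
  rw [← mul_sum, sum_product]
  simp only [← mul_sum]
  rw [← sum_mul]
  have b1 := block α M
  have b2 := block β M
  have b3 : (3 / 4 * (M : ℝ)) * (3 / 4 * M) ≤
      (∑ m ∈ Ioc M (16 * M), cos ((m : ℝ) * α) ^ 2) *
        ∑ m ∈ Ioc M (16 * M), cos ((m : ℝ) * β) ^ 2 :=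
    mul_le_mul b1 b2 (by positivity) (sum_nonneg fun _ _ => sq_nonneg _)
  calc 36 / (π ^ 4 * E) = 64 / (π ^ 4 * M ^ 2 * E) * ((3 / 4 * (M : ℝ)) * (3 / 4 * M)) := by
        field_simp; ring
    _ ≤ _ := mul_le_mul_of_nonneg_left b3 (by positivity)

theorem logm : SpecI.LOGM := by
  intro Y hY
  have hc : 0 < 36 / (π ^ 4 * (1 + 512 * π ^ 2 / Y)) := by
    have := pi_pos
    positivity
  set c : ℝ := 36 / (π ^ 4 * (1 + 512 * π ^ 2 / Y)) with hcdef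
  refine ⟨c / 16, by positivity, 4, fun t ht i i₁ j₁ _ _ => ?_⟩
  have hpow : ∀ l, l < t / 4 → 16 * (2 ^ i * 16 ^ l) ≤ 2 ^ (i + t) := by
    intro l hl
    calc 16 * (2 ^ i * 16 ^ l) = 2 ^ i * 16 ^ (l + 1) := by rw [pow_succ]; ring
      _ ≤ 2 ^ i * 16 ^ (t / 4) := Nat.mul_le_mul_left _ (Nat.pow_le_pow_right (by norm_num) hl)
      _ = 2 ^ (i + 4 * (t / 4)) := by rw [pow_add, pow_mul]; norm_num
      _ ≤ 2 ^ (i + t) := Nat.pow_le_pow_right (by norm_num) (by omega)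
  refine ⟨(range (t / 4)).biUnion fun l =>
    Ioc (2 ^ i * 16 ^ l) (16 * (2 ^ i * 16 ^ l)) ×ˢ Ioc (2 ^ i * 16 ^ l) (16 * (2 ^ i * 16 ^ l)), ?_⟩
  rw [sum_biUnion]
  · have hT : (t : ℝ) ≤ 16 * ((t / 4 : ℕ) : ℝ) := by
      have : t ≤ 16 * (t / 4) := by omega
      exact_mod_cast this
    calc c / 16 * t = t * (c / 16) := mul_comm _ _
      _ ≤ 16 * ((t / 4 : ℕ) : ℝ) * (c / 16) := mul_le_mul_of_nonneg_right hT (by positivity)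
      _ = ∑ l ∈ range (t / 4), c := by rw [sum_const, card_range, nsmul_eq_mul]; ring
      _ ≤ _ := by
        refine sum_le_sum fun l hl => ?_
        exact block_term Y hY i (i + t) i₁ j₁ (2 ^ i * 16 ^ l)
          (Nat.le_mul_of_pos_right _ (by positivity)) (hpow l (mem_range.mp hl))
  · intro a _ b _ hab
    have main : ∀ a b : ℕ, a < b → Disjoint
        (Ioc (2 ^ i * 16 ^ a) (16 * (2 ^ i * 16 ^ a)) ×ˢ Ioc (2 ^ i * 16 ^ a) (16 * (2 ^ i * 16 ^ a)))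
        (Ioc (2 ^ i * 16 ^ b) (16 * (2 ^ i * 16 ^ b)) ×ˢ
          Ioc (2 ^ i * 16 ^ b) (16 * (2 ^ i * 16 ^ b))) := by
      intro a b hab
      rw [disjoint_left]
      rintro ⟨x, y⟩ h1 h2
      simp only [mem_product, mem_Ioc] at h1 h2
      have : 16 * (2 ^ i * 16 ^ a) ≤ 2 ^ i * 16 ^ b := by
        calc 16 * (2 ^ i * 16 ^ a) = 2 ^ i * 16 ^ (a + 1) := by rw [pow_succ]; ring
          _ ≤ 2 ^ i * 16 ^ b := Nat.mul_le_mul_left _ (Nat.pow_le_pow_right (by norm_num) hab)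
      omega
    rcases lt_or_gt_of_ne hab with h | h
    · exact main a b h
    · exact (main b a h).symm

end Vale.Agent.P159.TM.H992
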